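import Mathlib

/-!
# P227 — multiplicative Prekopa-Leindler on (0, inf) from the weighted one-dimensional form

Pool job 209 (second half), by helper40 for helper98: the change of variables `t = exp x`
turns the weighted Prekopa-Leindler inequality on the line into its multiplicative form on
the half-line. The weighted inequality enters as the hypothesis `hPL`.
-/

namespace Vale.Agent.Lib.P227

open MeasureTheory Set
open scoped ENNReal

/-- Change of variables `t = exp x` for lower integrals over the half-line. -/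
theorem helper40_lintegral_Ioi_eq_exp (F : ℝ → ℝ≥0∞) :
    ∫⁻ t in Ioi (0:ℝ), F t = ∫⁻ x, ENNReal.ofReal (Real.exp x) * F (Real.exp x) := by
  have h := lintegral_image_eq_lintegral_abs_deriv_mul (s := (univ : Set ℝ)) (f := Real.exp)
    (f' := Real.exp) MeasurableSet.univ
    (fun x _ => (Real.hasDerivAt_exp x).hasDerivWithinAt) Real.exp_injective.injOn F
  rw [image_univ, Real.range_exp] at h
  rw [h, Measure.restrict_univ]
  refine lintegral_congr fun x => ?_
  rw [abs_of_pos (Real.exp_pos x)]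

/-- The multiplicative Prekopa-Leindler inequality on `(0, inf)`, given the weighted
one-dimensional Prekopa-Leindler inequality `hPL`. -/
theorem pl_mul_of_weighted
    (hPL : ∀ (lam : ℝ), 0 < lam → lam < 1 → ∀ (f g h : ℝ → ℝ≥0∞), Measurable f → Measurable g →
      Measurable h → (∀ x y, f x ^ (1 - lam) * g y ^ lam ≤ h ((1 - lam) * x + lam * y)) →
      (∫⁻ x, f x) ^ (1 - lam) * (∫⁻ x, g x) ^ lam ≤ ∫⁻ x, h x)
    (lam : ℝ) (h0 : 0 < lam) (h1 : lam < 1) (F G H : ℝ → ℝ≥0∞)
    (hF : Measurable F) (hG : Measurable G) (hH : Measurable H)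
    (hFGH : ∀ t s : ℝ, 0 < t → 0 < s →
      F t ^ (1 - lam) * G s ^ lam ≤ H (t ^ (1 - lam) * s ^ lam)) :
    (∫⁻ t in Ioi (0:ℝ), F t) ^ (1 - lam) * (∫⁻ s in Ioi (0:ℝ), G s) ^ lam
      ≤ ∫⁻ r in Ioi (0:ℝ), H r := by
  rw [helper40_lintegral_Ioi_eq_exp F, helper40_lintegral_Ioi_eq_exp G,
    helper40_lintegral_Ioi_eq_exp H]
  have hmeas : ∀ K : ℝ → ℝ≥0∞, Measurable K →
      Measurable (fun x => ENNReal.ofReal (Real.exp x) * K (Real.exp x)) := fun K hK =>
    (ENNReal.measurable_ofReal.comp Real.measurable_exp).mul (hK.comp Real.measurable_exp)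
  apply hPL lam h0 h1 _ _ _ (hmeas F hF) (hmeas G hG) (hmeas H hH)
  intro x y
  have hl : 0 ≤ 1 - lam := by linarith
  have hexp : Real.exp ((1 - lam) * x + lam * y) =
      Real.exp x ^ (1 - lam) * Real.exp y ^ lam := by
    rw [mul_comm (1 - lam) x, mul_comm lam y, Real.exp_add, Real.exp_mul, Real.exp_mul]
  have hH' := hFGH (Real.exp x) (Real.exp y) (Real.exp_pos x) (Real.exp_pos y)
  rw [ENNReal.mul_rpow_of_nonneg _ _ hl, ENNReal.mul_rpow_of_nonneg _ _ h0.le,
    ENNReal.ofReal_rpow_of_pos (Real.exp_pos x), ENNReal.ofReal_rpow_of_pos (Real.exp_pos y),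
    hexp]
  calc ENNReal.ofReal (Real.exp x ^ (1 - lam)) * F (Real.exp x) ^ (1 - lam) *
        (ENNReal.ofReal (Real.exp y ^ lam) * G (Real.exp y) ^ lam)
      = (ENNReal.ofReal (Real.exp x ^ (1 - lam)) * ENNReal.ofReal (Real.exp y ^ lam)) *
          (F (Real.exp x) ^ (1 - lam) * G (Real.exp y) ^ lam) := by ring
    _ ≤ (ENNReal.ofReal (Real.exp x ^ (1 - lam)) * ENNReal.ofReal (Real.exp y ^ lam)) *
          H (Real.exp x ^ (1 - lam) * Real.exp y ^ lam) := by gcongr
    _ = ENNReal.ofReal (Real.exp x ^ (1 - lam) * Real.exp y ^ lam) *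
          H (Real.exp x ^ (1 - lam) * Real.exp y ^ lam) := by
        rw [ENNReal.ofReal_mul (Real.rpow_nonneg (Real.exp_pos x).le _)]

end Vale.Agent.Lib.P227
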